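import Vale.Agent.Helper16.OT.Defs

/-!
# Measure lemmas for a general compact body with nonempty interior

* `exists_quantile`: intermediate value theorem for the distribution function of one
  coordinate under a finite measure with a Lipschitz slab bound.
* `unif_apply`, `isProbabilityMeasure_unif`, `unif_le_of_inter_subset`: basic facts on the
  uniform measure.
* `le_volume_pi`, `volume_pi_le`: bounds for the volume of a box with one special side.
-/

namespace Vale.Agent.Helper16.OT

open MeasureTheory
open Classical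

variable {d : ℕ}

lemma measurableSet_coord_lt (i0 : Fin d) (b : ℝ) :
    MeasurableSet {x : Fin d → ℝ | x i0 < b} :=
  measurableSet_lt (measurable_pi_apply i0) measurable_const

lemma measurableSet_coord_le (i0 : Fin d) (b : ℝ) :
    MeasurableSet {x : Fin d → ℝ | b ≤ x i0} :=
  measurableSet_le measurable_const (measurable_pi_apply i0)

lemma measurableSet_slab (i0 : Fin d) (b b' : ℝ) :
    MeasurableSet {x : Fin d → ℝ | b ≤ x i0 ∧ x i0 < b'} :=
  (measurableSet_coord_le i0 b).inter (measurableSet_coord_lt i0 b')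

/-- The distribution function of one coordinate splits along a slab. -/
lemma measure_coord_lt_add_slab (ρ : Measure (Fin d → ℝ)) (i0 : Fin d) {b b' : ℝ}
    (hbb' : b ≤ b') :
    ρ {x | x i0 < b} + ρ {x | b ≤ x i0 ∧ x i0 < b'} = ρ {x | x i0 < b'} := by
  have hU : {x : Fin d → ℝ | x i0 < b'} = {x | x i0 < b} ∪ {x | b ≤ x i0 ∧ x i0 < b'} := by
    ext x
    simp only [Set.mem_ofPred_eq, Set.mem_union]
    constructor
    · intro h
      by_cases hx : x i0 < b
      · exact Or.inl hx
      · exact Or.inr ⟨not_lt.mp hx, h⟩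
    · rintro (h | h)
      · exact lt_of_lt_of_le h hbb'
      · exact h.2
  have hdisj : Disjoint {x : Fin d → ℝ | x i0 < b} {x | b ≤ x i0 ∧ x i0 < b'} := by
    rw [Set.disjoint_left]
    intro x hx hx'
    exact absurd hx (not_lt.mpr hx'.1)
  rw [hU, measure_union hdisj (measurableSet_slab i0 b b')]

/-- Quantiles by the intermediate value theorem: if the slabs `{b ≤ x i0 < b'}` have
measure at most `L * (b' - b)`, every value between the distribution function at `lo`
and at `hi` is attained at some point of `[lo, hi]`. -/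
lemma exists_quantile (ρ : Measure (Fin d → ℝ)) [IsFiniteMeasure ρ] (i0 : Fin d) (L : ℝ)
    (hL0 : 0 ≤ L)
    (hL : ∀ b b' : ℝ, b ≤ b' → ρ {x | b ≤ x i0 ∧ x i0 < b'} ≤ ENNReal.ofReal (L * (b' - b)))
    (lo hi : ℝ) (hlohi : lo ≤ hi) (m : ENNReal)
    (h1 : ρ {x | x i0 < lo} ≤ m) (h2 : m ≤ ρ {x | x i0 < hi}) :
    ∃ b, lo ≤ b ∧ b ≤ hi ∧ ρ {x | x i0 < b} = m := by
  set F : ℝ → ℝ := fun b => (ρ {x | x i0 < b}).toReal with hF
  have hsplit : ∀ b b', b ≤ b' →
      F b' = F b + (ρ {x | b ≤ x i0 ∧ x i0 < b'}).toReal := by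
    intro b b' hbb'
    simp only [hF]
    rw [← measure_coord_lt_add_slab ρ i0 hbb',
      ENNReal.toReal_add (measure_ne_top ρ _) (measure_ne_top ρ _)]
  have hslab : ∀ b b', b ≤ b' → (ρ {x | b ≤ x i0 ∧ x i0 < b'}).toReal ≤ L * (b' - b) := by
    intro b b' hbb'
    exact ENNReal.toReal_le_of_le_ofReal (mul_nonneg hL0 (by linarith)) (hL b b' hbb')
  have hcont : Continuous F := by
    have hlip : LipschitzWith ⟨L, hL0⟩ F := by
      apply LipschitzWith.of_dist_le_mul
      intro b b'
      rw [Real.dist_eq, Real.dist_eq]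
      show |F b - F b'| ≤ L * |b - b'|
      rcases le_total b b' with hbb' | hbb'
      · have e := hsplit b b' hbb'
        have hs := hslab b b' hbb'
        have h0 : 0 ≤ (ρ {x | b ≤ x i0 ∧ x i0 < b'}).toReal := ENNReal.toReal_nonneg
        rw [abs_sub_comm (F b), abs_of_nonneg (by linarith), abs_sub_comm b,
          abs_of_nonneg (by linarith)]
        linarith
      · have e := hsplit b' b hbb'
        have hs := hslab b' b hbb'
        have h0 : 0 ≤ (ρ {x | b' ≤ x i0 ∧ x i0 < b}).toReal := ENNReal.toReal_nonneg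
        rw [abs_of_nonneg (by linarith), abs_of_nonneg (by linarith)]
        linarith
    exact hlip.continuous
  have hm : m ≠ ⊤ := ne_top_of_le_ne_top (measure_ne_top ρ _) h2
  have hmem : m.toReal ∈ Set.Icc (F lo) (F hi) :=
    ⟨ENNReal.toReal_mono hm h1, ENNReal.toReal_mono (measure_ne_top ρ _) h2⟩
  obtain ⟨b, hb, hFb⟩ := intermediate_value_Icc hlohi hcont.continuousOn hmem
  refine ⟨b, hb.1, hb.2, ?_⟩
  exact (ENNReal.toReal_eq_toReal_iff' (measure_ne_top ρ _) hm).mp hFb

/-- The uniform measure of a measurable set. -/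
lemma unif_apply (K : Set (Fin d → ℝ)) {A : Set (Fin d → ℝ)} (hA : MeasurableSet A) :
    unif K A = (volume K)⁻¹ * volume (A ∩ K) := by
  unfold unif
  rw [Measure.smul_apply, Measure.restrict_apply hA, smul_eq_mul]

lemma isProbabilityMeasure_unif (K : Set (Fin d → ℝ)) (h0 : volume K ≠ 0)
    (htop : volume K ≠ ⊤) : IsProbabilityMeasure (unif K) := by
  constructor
  rw [unif_apply K MeasurableSet.univ, Set.univ_inter, ENNReal.inv_mul_cancel h0 htop]

/-- Monotonicity of the uniform measure modulo the complement of `K`. -/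
lemma unif_le_of_inter_subset (K : Set (Fin d → ℝ)) {A B : Set (Fin d → ℝ)}
    (hA : MeasurableSet A) (hB : MeasurableSet B) (h : A ∩ K ⊆ B) :
    unif K A ≤ unif K B := by
  rw [unif_apply K hA, unif_apply K hB]
  have hsub : A ∩ K ⊆ B ∩ K := fun x hx => ⟨h hx, hx.2⟩
  exact mul_le_mul_right (measure_mono hsub) _

/-- A box with one side of measure at least `w` and all other sides of measure at least
`s` has volume at least `w * s ^ (d - 1)`. -/
lemma le_volume_pi (i0 : Fin d) (S : Fin d → Set ℝ) (w s : ENNReal)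
    (h0 : w ≤ volume (S i0)) (h : ∀ i, i ≠ i0 → s ≤ volume (S i)) :
    w * s ^ (d - 1) ≤ volume (Set.pi Set.univ S) := by
  rw [volume_pi, Measure.pi_pi]
  have e : w * s ^ (d - 1) = ∏ i, Function.update (fun _ : Fin d => s) i0 w i := by
    rw [Finset.prod_update_of_mem (Finset.mem_univ i0), Finset.prod_const,
      Finset.card_sdiff_of_subset (Finset.subset_univ _)]
    simp
  rw [e]
  apply Finset.prod_le_prod'
  intro i _
  by_cases hi : i = i0
  · subst hi; simpa using h0
  · simpa [Function.update_of_ne hi] using h i hi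

/-- A box with one side of measure at most `w` and all other sides of measure at most
`s` has volume at most `w * s ^ (d - 1)`. -/
lemma volume_pi_le (i0 : Fin d) (S : Fin d → Set ℝ) (w s : ENNReal)
    (h0 : volume (S i0) ≤ w) (h : ∀ i, i ≠ i0 → volume (S i) ≤ s) :
    volume (Set.pi Set.univ S) ≤ w * s ^ (d - 1) := by
  rw [volume_pi, Measure.pi_pi]
  have e : w * s ^ (d - 1) = ∏ i, Function.update (fun _ : Fin d => s) i0 w i := by
    rw [Finset.prod_update_of_mem (Finset.mem_univ i0), Finset.prod_const,
      Finset.card_sdiff_of_subset (Finset.subset_univ _)]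
    simp
  rw [e]
  apply Finset.prod_le_prod'
  intro i _
  by_cases hi : i = i0
  · subst hi; simpa using h0
  · simpa [Function.update_of_ne hi] using h i hi

end Vale.Agent.Helper16.OT
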