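import Vale.Agent.Helper16.OT.Body
import Vale.Agent.Helper16.OT.Cube

/-!
# Slabs and wedges in a compact body with an interior cube

`K` is a set with `|x i - z i| ≤ Rz` for all `x ∈ K` (bounding cube) which contains the
cube `{x | ∀ i, |x i - z i| ≤ r}`.  We bound the volumes of the parts of `K` in a slab
`{b ≤ x i0 < b'}` and in the wedge `{|x i0 - z i0| ≤ t * (x i1 - z i1)}`.
-/

namespace Vale.Agent.Helper16.OT

open MeasureTheory
open Classical

variable {d : ℕ}

lemma unif_le_ofReal (K : Set (Fin d → ℝ)) (h0 : volume K ≠ 0) (htop : volume K ≠ ⊤)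
    {A : Set (Fin d → ℝ)} (hA : MeasurableSet A) {c : ℝ}
    (h : volume (A ∩ K) ≤ ENNReal.ofReal c) :
    unif K A ≤ ENNReal.ofReal (c / (volume K).toReal) := by
  have hv : 0 < (volume K).toReal := ENNReal.toReal_pos h0 htop
  rw [unif_apply K hA, ENNReal.ofReal_div_of_pos hv, ENNReal.ofReal_toReal htop,
    ENNReal.div_eq_inv_mul]
  exact mul_le_mul_right h _

lemma ofReal_le_unif (K : Set (Fin d → ℝ)) (h0 : volume K ≠ 0) (htop : volume K ≠ ⊤)
    {A : Set (Fin d → ℝ)} (hA : MeasurableSet A) {c : ℝ}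
    (h : ENNReal.ofReal c ≤ volume (A ∩ K)) :
    ENNReal.ofReal (c / (volume K).toReal) ≤ unif K A := by
  have hv : 0 < (volume K).toReal := ENNReal.toReal_pos h0 htop
  rw [unif_apply K hA, ENNReal.ofReal_div_of_pos hv, ENNReal.ofReal_toReal htop,
    ENNReal.div_eq_inv_mul]
  exact mul_le_mul_right h _

/-- The wedge `{x | |x i0 - z i0| ≤ t * (x i1 - z i1)}` with apex `z`. -/
def wedge (i0 i1 : Fin d) (z : Fin d → ℝ) (t : ℝ) : Set (Fin d → ℝ) :=
  {x | |x i0 - z i0| ≤ t * (x i1 - z i1)}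

lemma measurableSet_wedge (i0 i1 : Fin d) (z : Fin d → ℝ) (t : ℝ) :
    MeasurableSet (wedge i0 i1 z t) := by
  have h1 : Measurable (fun x : Fin d → ℝ => |x i0 - z i0|) := by fun_prop
  have h2 : Measurable (fun x : Fin d → ℝ => t * (x i1 - z i1)) := by fun_prop
  exact measurableSet_le h1 h2

/-- Slabs of `K` have volume at most width times `(2 Rz) ^ (d - 1)`. -/
lemma volume_slab_inter_le (K : Set (Fin d → ℝ)) (z : Fin d → ℝ) (Rz : ℝ) (hRz : 0 ≤ Rz)
    (hbd : ∀ x ∈ K, ∀ i, |x i - z i| ≤ Rz) (i0 : Fin d) (b b' : ℝ) (hbb' : b ≤ b') :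
    volume ({x : Fin d → ℝ | b ≤ x i0 ∧ x i0 < b'} ∩ K)
      ≤ ENNReal.ofReal ((b' - b) * (2 * Rz) ^ (d - 1)) := by
  have hsub : {x : Fin d → ℝ | b ≤ x i0 ∧ x i0 < b'} ∩ K
      ⊆ Set.pi Set.univ (fun i : Fin d =>
          if i = i0 then Set.Ico b b' else Set.Icc (z i - Rz) (z i + Rz)) := by
    rintro x ⟨hx, hxK⟩ i _
    by_cases hi : i = i0
    · subst hi
      simpa using hx
    · simp only [hi, if_false]
      have := abs_le.mp (hbd x hxK i)
      exact ⟨by linarith [this.1], by linarith [this.2]⟩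
  refine (measure_mono hsub).trans ?_
  refine (volume_pi_le i0 _ (ENNReal.ofReal (b' - b)) (ENNReal.ofReal (2 * Rz)) ?_ ?_).trans ?_
  · simp [Real.volume_Ico]
  · intro i hi
    simp only [hi, if_false, Real.volume_Icc]
    apply ENNReal.ofReal_le_ofReal
    linarith
  · rw [← ENNReal.ofReal_pow (by linarith), ← ENNReal.ofReal_mul (by linarith)]

/-- The wedge part of `K` has volume at most `2 t Rz (2 Rz) ^ (d - 1)`. -/
lemma volume_wedge_inter_le (K : Set (Fin d → ℝ)) (z : Fin d → ℝ) (Rz : ℝ) (hRz : 0 ≤ Rz)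
    (hbd : ∀ x ∈ K, ∀ i, |x i - z i| ≤ Rz) (i0 i1 : Fin d) (t : ℝ) (ht : 0 ≤ t) :
    volume (wedge i0 i1 z t ∩ K) ≤ ENNReal.ofReal (2 * t * Rz * (2 * Rz) ^ (d - 1)) := by
  have hsub : wedge i0 i1 z t ∩ K
      ⊆ Set.pi Set.univ (fun i : Fin d =>
          if i = i0 then Set.Icc (z i0 - t * Rz) (z i0 + t * Rz)
          else Set.Icc (z i - Rz) (z i + Rz)) := by
    rintro x ⟨hx, hxK⟩ i _
    by_cases hi : i = i0
    · subst hi
      have hx' : |x i - z i| ≤ t * (x i1 - z i1) := hx
      have h1 := abs_le.mp (hbd x hxK i1)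
      have h2 : t * (x i1 - z i1) ≤ t * Rz := mul_le_mul_of_nonneg_left (by linarith [h1.2]) ht
      have h3 := abs_le.mp (hx'.trans h2)
      simp only [if_true]
      exact ⟨by linarith [h3.1], by linarith [h3.2]⟩
    · simp only [hi, if_false]
      have := abs_le.mp (hbd x hxK i)
      exact ⟨by linarith [this.1], by linarith [this.2]⟩
  refine (measure_mono hsub).trans ?_
  refine (volume_pi_le i0 _ (ENNReal.ofReal (2 * t * Rz)) (ENNReal.ofReal (2 * Rz)) ?_ ?_).trans ?_
  · simp only [if_true, Real.volume_Icc]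
    apply ENNReal.ofReal_le_ofReal
    linarith
  · intro i hi
    simp only [hi, if_false, Real.volume_Icc]
    apply ENNReal.ofReal_le_ofReal
    linarith
  · rw [← ENNReal.ofReal_pow (by linarith), ← ENNReal.ofReal_mul (by positivity)]

/-- The wedge part of `K` has volume at least `t r (r / 2) ^ (d - 1)`. -/
lemma le_volume_wedge_inter (K : Set (Fin d → ℝ)) (z : Fin d → ℝ) (r : ℝ) (hr : 0 < r)
    (hcube : ∀ x : Fin d → ℝ, (∀ i, |x i - z i| ≤ r) → x ∈ K) (i0 i1 : Fin d) (h01 : i0 ≠ i1)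
    (t : ℝ) (ht : 0 ≤ t) (ht1 : t ≤ 1) :
    ENNReal.ofReal (t * r * (r / 2) ^ (d - 1)) ≤ volume (wedge i0 i1 z t ∩ K) := by
  have hsub : Set.pi Set.univ (fun i : Fin d =>
          if i = i0 then Set.Icc (z i0 - t * r / 2) (z i0 + t * r / 2)
          else if i = i1 then Set.Icc (z i1 + r / 2) (z i1 + r)
          else Set.Icc (z i - r) (z i + r)) ⊆ wedge i0 i1 z t ∩ K := by
    intro x hx
    have hx0 : x i0 ∈ Set.Icc (z i0 - t * r / 2) (z i0 + t * r / 2) := by
      simpa using hx i0 (Set.mem_univ _)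
    have hx1 : x i1 ∈ Set.Icc (z i1 + r / 2) (z i1 + r) := by
      simpa [Ne.symm h01] using hx i1 (Set.mem_univ _)
    have htr : t * r / 2 ≤ r := by nlinarith
    constructor
    · show |x i0 - z i0| ≤ t * (x i1 - z i1)
      rw [abs_le]
      have h1 : t * (r / 2) ≤ t * (x i1 - z i1) :=
        mul_le_mul_of_nonneg_left (by linarith [hx1.1]) ht
      exact ⟨by linarith [hx0.1], by linarith [hx0.2]⟩
    · apply hcube
      intro i
      rw [abs_le]
      by_cases hi : i = i0
      · subst hi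
        exact ⟨by linarith [hx0.1], by linarith [hx0.2]⟩
      · by_cases hi' : i = i1
        · subst hi'
          exact ⟨by linarith [hx1.1], by linarith [hx1.2]⟩
        · have := hx i (Set.mem_univ _)
          simp only [hi, hi', if_false] at this
          exact ⟨by linarith [this.1], by linarith [this.2]⟩
  refine le_trans ?_ (measure_mono hsub)
  refine le_trans ?_ (le_volume_pi i0 _ (ENNReal.ofReal (t * r)) (ENNReal.ofReal (r / 2)) ?_ ?_)
  · rw [← ENNReal.ofReal_pow (by linarith), ← ENNReal.ofReal_mul (by positivity)]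
  · simp only [if_true, Real.volume_Icc]
    apply ENNReal.ofReal_le_ofReal
    linarith
  · intro i hi
    by_cases hi' : i = i1
    · subst hi'
      simp only [hi, if_false, if_true, Real.volume_Icc]
      apply ENNReal.ofReal_le_ofReal
      linarith
    · simp only [hi, hi', if_false, Real.volume_Icc]
      apply ENNReal.ofReal_le_ofReal
      linarith

/-- The part of a slab through the interior cube lying below the apex has volume at least
width times `r ^ (d - 1)`. -/
lemma le_volume_lower_slab_inter (K : Set (Fin d → ℝ)) (z : Fin d → ℝ) (r : ℝ) (hr : 0 < r)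
    (hcube : ∀ x : Fin d → ℝ, (∀ i, |x i - z i| ≤ r) → x ∈ K) (i0 i1 : Fin d) (h01 : i0 ≠ i1)
    (b0 b1 : ℝ) (hb0 : z i0 - r ≤ b0) (hb01 : b0 ≤ b1) (hb1 : b1 ≤ z i0 + r) :
    ENNReal.ofReal ((b1 - b0) * r ^ (d - 1))
      ≤ volume ({x : Fin d → ℝ | (b0 ≤ x i0 ∧ x i0 < b1) ∧ x i1 < z i1} ∩ K) := by
  have hsub : Set.pi Set.univ (fun i : Fin d =>
          if i = i0 then Set.Ico b0 b1
          else if i = i1 then Set.Ico (z i1 - r) (z i1)
          else Set.Icc (z i - r) (z i + r))
      ⊆ {x : Fin d → ℝ | (b0 ≤ x i0 ∧ x i0 < b1) ∧ x i1 < z i1} ∩ K := by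
    intro x hx
    have hx0 : x i0 ∈ Set.Ico b0 b1 := by
      simpa using hx i0 (Set.mem_univ _)
    have hx1 : x i1 ∈ Set.Ico (z i1 - r) (z i1) := by
      simpa [Ne.symm h01] using hx i1 (Set.mem_univ _)
    constructor
    · exact ⟨⟨hx0.1, hx0.2⟩, hx1.2⟩
    · apply hcube
      intro i
      rw [abs_le]
      by_cases hi : i = i0
      · subst hi
        exact ⟨by linarith [hx0.1], by linarith [hx0.2]⟩
      · by_cases hi' : i = i1
        · subst hi'
          exact ⟨by linarith [hx1.1], by linarith [hx1.2]⟩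
        · have := hx i (Set.mem_univ _)
          simp only [hi, hi', if_false] at this
          exact ⟨by linarith [this.1], by linarith [this.2]⟩
  refine le_trans ?_ (measure_mono hsub)
  refine le_trans ?_ (le_volume_pi i0 _ (ENNReal.ofReal (b1 - b0)) (ENNReal.ofReal r) ?_ ?_)
  · rw [← ENNReal.ofReal_pow hr.le, ← ENNReal.ofReal_mul (by linarith)]
  · simp [Real.volume_Ico]
  · intro i hi
    by_cases hi' : i = i1
    · subst hi'
      simp only [hi, if_false, if_true, Real.volume_Ico]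
      apply ENNReal.ofReal_le_ofReal
      linarith
    · simp only [hi, hi', if_false, Real.volume_Icc]
      apply ENNReal.ofReal_le_ofReal
      linarith

end Vale.Agent.Helper16.OT
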