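import Vale.Agent.Helper16.OT.TwoPoint

/-!
# Maps with finitely many values: optimality from a potential, couplings, push-forwards
-/

namespace Vale.Agent.Helper16.OT

open MeasureTheory
open Classical

variable {d : ℕ}

/-- The coupling `(S, T)_# ρ` bounds the squared Wasserstein distance of the two
push-forwards. -/
lemma W2sq_map_map_le (ρ : Measure (Fin d → ℝ))
    {S T : (Fin d → ℝ) → (Fin d → ℝ)} (hS : Measurable S) (hT : Measurable T) :
    W2sq (ρ.map S) (ρ.map T) ≤ ∫⁻ x, ENNReal.ofReal (sqDist (S x) (T x)) ∂ρ := by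
  have hpair : Measurable (fun x => (S x, T x)) := hS.prodMk hT
  have hfst : (ρ.map (fun x => (S x, T x))).map Prod.fst = ρ.map S := by
    rw [Measure.map_map measurable_fst hpair]; rfl
  have hsnd : (ρ.map (fun x => (S x, T x))).map Prod.snd = ρ.map T := by
    rw [Measure.map_map measurable_snd hpair]; rfl
  unfold W2sq
  refine iInf_le_of_le ⟨ρ.map (fun x => (S x, T x)), hfst, hsnd⟩ ?_
  simp only
  rw [lintegral_map measurable_sqDist_pair hpair]

/-- The measure of a preimage under a map with values in a finite set. -/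
lemma measure_preimage_finite (ρ : Measure (Fin d → ℝ))
    {S : (Fin d → ℝ) → (Fin d → ℝ)} (hS : Measurable S)
    (F : Finset (Fin d → ℝ)) (hSF : ∀ x, S x ∈ F) (s : Set (Fin d → ℝ)) :
    ρ (S ⁻¹' s) = ∑ y ∈ F.filter (fun y => y ∈ s), ρ (S ⁻¹' {y}) := by
  have hU : S ⁻¹' s = ⋃ y ∈ F.filter (fun y => y ∈ s), S ⁻¹' {y} := by
    ext x
    simp only [Set.mem_preimage, Set.mem_iUnion, Finset.mem_filter, Set.mem_singleton_iff,
      exists_prop]
    constructor
    · intro hx
      exact ⟨S x, ⟨hSF x, hx⟩, rfl⟩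
    · rintro ⟨y, ⟨_, hy⟩, hxy⟩
      rw [hxy]; exact hy
  rw [hU]
  apply measure_biUnion_finset
  · intro y _ z _ hyz
    apply Set.disjoint_left.mpr
    intro x hx hx'
    simp only [Set.mem_preimage, Set.mem_singleton_iff] at hx hx'
    exact hyz (hx.symm.trans hx')
  · intro y _
    exact hS (measurableSet_singleton y)

/-- Two maps with values in the same finite set whose level sets have equal measure
have the same push-forward. -/
lemma map_eq_of_fibres (ρ : Measure (Fin d → ℝ))
    {S T : (Fin d → ℝ) → (Fin d → ℝ)} (hS : Measurable S) (hT : Measurable T)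
    (F : Finset (Fin d → ℝ)) (hSF : ∀ x, S x ∈ F) (hTF : ∀ x, T x ∈ F)
    (h : ∀ y ∈ F, ρ (S ⁻¹' {y}) = ρ (T ⁻¹' {y})) :
    ρ.map S = ρ.map T := by
  ext s hs
  rw [Measure.map_apply hS hs, Measure.map_apply hT hs,
    measure_preimage_finite ρ hS F hSF s, measure_preimage_finite ρ hT F hTF s]
  apply Finset.sum_congr rfl
  intro y hy
  exact h y (Finset.mem_filter.mp hy).1

/-- Optimality from a potential: if `T` takes its values in a finite set `F` and
`T x` minimises `sqDist x y - ψ y` over `y ∈ F` for every `x`, then `T` is an optimal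
map from `ρ` to its own push-forward. -/
lemma isOptMap_of_potential (ρ : Measure (Fin d → ℝ)) [IsFiniteMeasure ρ]
    {T : (Fin d → ℝ) → (Fin d → ℝ)} (hT : Measurable T)
    (F : Finset (Fin d → ℝ)) (hTF : ∀ x, T x ∈ F)
    (ψ : (Fin d → ℝ) → ℝ) (hψ : ∀ y ∈ F, 0 ≤ ψ y)
    (h : ∀ x, ∀ y ∈ F, sqDist x (T x) + ψ y ≤ sqDist x y + ψ (T x)) :
    IsOptMap ρ (ρ.map T) T := by
  refine ⟨hT, rfl, ?_⟩
  intro T' hT' hmap
  -- the potential as a measurable function with values in `[0, ∞]`
  set g : (Fin d → ℝ) → ENNReal :=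
    fun z => ∑ y ∈ F, ENNReal.ofReal (ψ y) * ({y} : Set (Fin d → ℝ)).indicator 1 z with hg
  have hgm : Measurable g := by
    rw [hg]
    apply Finset.measurable_sum
    intro y _
    exact (measurable_const.indicator (measurableSet_singleton y)).const_mul _
  have hgF : ∀ z ∈ F, g z = ENNReal.ofReal (ψ z) := by
    intro z hz
    rw [hg]
    simp only
    rw [Finset.sum_eq_single z]
    · simp
    · intro y _ hyz
      have : z ∉ ({y} : Set (Fin d → ℝ)) := by
        simp only [Set.mem_singleton_iff]; exact fun e => hyz e.symm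
      rw [Set.indicator_of_notMem this]; simp
    · intro hz'; exact absurd hz hz'
  have hgle : ∀ z, g z ≤ ∑ y ∈ F, ENNReal.ofReal (ψ y) := by
    intro z
    rw [hg]
    simp only
    apply Finset.sum_le_sum
    intro y _
    by_cases hzy : z ∈ ({y} : Set (Fin d → ℝ))
    · rw [Set.indicator_of_mem hzy]; simp
    · rw [Set.indicator_of_notMem hzy]; simp
  -- `T'` takes its values in `F` almost everywhere
  have hFm : MeasurableSet ((↑F : Set (Fin d → ℝ))ᶜ) := F.measurableSet.compl
  have hN : ρ (T' ⁻¹' (↑F : Set (Fin d → ℝ))ᶜ) = 0 := by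
    rw [← Measure.map_apply hT' hFm, hmap, Measure.map_apply hT hFm]
    have : T ⁻¹' (↑F : Set (Fin d → ℝ))ᶜ = ∅ := by
      ext x
      simp only [Set.mem_preimage, Set.mem_compl_iff, Finset.mem_coe, Set.mem_empty_iff_false,
        iff_false, not_not]
      exact hTF x
    rw [this]; simp
  have hae : ∀ᵐ x ∂ρ, T' x ∈ F := by
    rw [ae_iff]
    have : {x | ¬ T' x ∈ F} = T' ⁻¹' (↑F : Set (Fin d → ℝ))ᶜ := by
      ext x; simp
    rw [this]; exact hN
  have hpt : ∀ᵐ x ∂ρ,
      ENNReal.ofReal (sqDist x (T x)) + g (T' x)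
        ≤ ENNReal.ofReal (sqDist x (T' x)) + g (T x) := by
    filter_upwards [hae] with x hx
    rw [hgF _ hx, hgF _ (hTF x), ← ENNReal.ofReal_add (sqDist_nonneg _ _) (hψ _ hx),
      ← ENNReal.ofReal_add (sqDist_nonneg _ _) (hψ _ (hTF x))]
    exact ENNReal.ofReal_le_ofReal (h x (T' x) hx)
  have hint := lintegral_mono_ae hpt
  have hg1 : Measurable (fun x => g (T' x)) := hgm.comp hT'
  have hg2 : Measurable (fun x => g (T x)) := hgm.comp hT
  have e1 : ∫⁻ x, g (T' x) ∂ρ = ∫⁻ x, g (T x) ∂ρ := by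
    rw [← lintegral_map hgm hT', ← lintegral_map hgm hT, hmap]
  rw [lintegral_add_right _ hg1, lintegral_add_right _ hg2, e1] at hint
  have hfin : ∫⁻ x, g (T x) ∂ρ ≠ ⊤ := by
    have hle : ∫⁻ x, g (T x) ∂ρ ≤ ∫⁻ _x, (∑ y ∈ F, ENNReal.ofReal (ψ y)) ∂ρ :=
      lintegral_mono fun x => hgle (T x)
    rw [lintegral_const] at hle
    have hM : (∑ y ∈ F, ENNReal.ofReal (ψ y)) ≠ ⊤ := by
      apply ENNReal.sum_ne_top.mpr
      intro y _
      exact ENNReal.ofReal_ne_top
    exact ne_top_of_le_ne_top (ENNReal.mul_ne_top hM (measure_ne_top ρ _)) hle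
  exact (ENNReal.add_le_add_iff_right hfin).mp hint

end Vale.Agent.Helper16.OT
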